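import Vale.Agent.P209.Slab
import Vale.Agent.P209.Final
import Vale.Agent.P209.Sharp

/-!
# P209: sufficiency in Siegel-Yao Conjecture A, for at most `2^n` balls, and for any number of
balls with a multiplicative, respectively an asymptotically sharp, volume condition.
-/

open P209

theorem Vale.Agent.Results.P209.ToricPackings.result :
    -- (1) the `if` direction of Conjecture A holds for at most `2 ^ n` balls
    (∀ (n k : ℕ) (R : ℝ) (a : Fin k → ℝ), 1 ≤ n → k ≤ 2 ^ n → (∀ i, 0 < a i) →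
      (∀ i, a i < R) → (∀ i j, i ≠ j → a i + a j < R) → Packs n R a) ∧
    -- (2) one ball of any capacity, and `m ^ n - (m - 1) ^ n` balls of capacity less than `R / m`
    (∀ (n m k : ℕ) (R : ℝ) (a : Fin (k + 1) → ℝ), 1 ≤ n → 1 ≤ m → k + (m - 1) ^ n ≤ m ^ n →
      (∀ i, 0 < a i) → a 0 < R → (∀ i, i ≠ 0 → a 0 + a i < R) → (∀ i, i ≠ 0 → m * a i < R) →
      Packs n R a) ∧
    -- (3) any number of balls, `a 0` the largest: the volume that `a 0` leaves free need only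
    -- exceed the volume of the other balls by the factor `3 ^ n`
    (∀ (n k : ℕ) (R : ℝ) (a : Fin (k + 1) → ℝ), 2 ≤ n → (∀ i, 0 < a i) → (∀ i, a i ≤ a 0) →
      a 0 < R → (∀ i, i ≠ 0 → a 0 + a i < R) →
      3 ^ n * ∑ i ∈ Finset.univ.erase 0, a i ^ n ≤ R ^ n - a 0 ^ n → Packs n R a) ∧
    -- (4) one ball of any capacity `a 0`, and any number of balls that are small against `R - a 0`:
    -- a proportion `1 - δ` of the free volume can be filled
    (∀ (n : ℕ) (δ : ℝ), 1 ≤ n → 0 < δ → ∃ η : ℝ, 0 < η ∧ ∀ (k : ℕ) (R : ℝ)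
      (a : Fin (k + 1) → ℝ), (∀ i, 0 < a i) → a 0 < R → (∀ i, i ≠ 0 → a i ≤ η * (R - a 0)) →
      ∑ i ∈ Finset.univ.erase 0, a i ^ n ≤ (1 - δ) * (R ^ n - a 0 ^ n) → Packs n R a) :=
  ⟨fun _ _ _ _ hn hk ha hR h => two_ball hn hk ha hR h,
   fun _ _ _ _ _ hn hm hk ha h0 h1 h2 => slab hn hm ha hk h0 h1 h2,
   fun _ _ _ _ hn ha hmax h0 h2 hvol => coarse hn ha hmax h0 h2 hvol,
   fun _ _ hn hδ => sharp hn hδ⟩
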